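import Mathlib

/-!
Helper lemmas for P229: primitives of smooth functions, and the first fundamental form of a map
into Euclidean three-space given by three coordinate functions.
-/

namespace Vale.Agent.P229

open scoped ContDiff

theorem prim_hasDerivAt (f : ℝ → ℝ) (hf : Continuous f) (x0 x : ℝ) :
    HasDerivAt (fun u => ∫ t in x0..u, f t) (f x) x :=
  (hf.integral_hasStrictDerivAt x0 x).hasDerivAt

theorem prim_contDiff (f : ℝ → ℝ) (hf : ContDiff ℝ ∞ f) (x0 : ℝ) :
    ContDiff ℝ ∞ (fun u => ∫ t in x0..u, f t) := by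
  rw [contDiff_infty_iff_deriv]
  refine ⟨fun x => (prim_hasDerivAt f hf.continuous x0 x).differentiableAt, ?_⟩
  have : deriv (fun u => ∫ t in x0..u, f t) = f :=
    funext fun x => (prim_hasDerivAt f hf.continuous x0 x).deriv
  rw [this]
  exact hf

theorem prim_contDiffOn (f : ℝ → ℝ) (hf : Continuous f) (s : Set ℝ) (hs : IsOpen s)
    (hfs : ContDiffOn ℝ ∞ f s) (x0 : ℝ) :
    ContDiffOn ℝ ∞ (fun u => ∫ t in x0..u, f t) s := by
  rw [contDiffOn_infty_iff_deriv_of_isOpen hs]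
  refine ⟨fun x _ => (prim_hasDerivAt f hf x0 x).differentiableAt.differentiableWithinAt, ?_⟩
  have : deriv (fun u => ∫ t in x0..u, f t) = f :=
    funext fun x => (prim_hasDerivAt f hf x0 x).deriv
  rw [this]
  exact hfs

theorem inner_fderiv (X Y Z : ℝ × ℝ → ℝ) (q : ℝ × ℝ) (LX LY LZ : ℝ × ℝ →L[ℝ] ℝ)
    (hX : HasFDerivAt X LX q) (hY : HasFDerivAt Y LY q) (hZ : HasFDerivAt Z LZ q)
    (v w : ℝ × ℝ) :
    inner ℝ (fderiv ℝ (fun q => (!₂[X q, Y q, Z q] : EuclideanSpace ℝ (Fin 3))) q v)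
      (fderiv ℝ (fun q => (!₂[X q, Y q, Z q] : EuclideanSpace ℝ (Fin 3))) q w)
      = LX v * LX w + LY v * LY w + LZ v * LZ w := by
  have h : HasFDerivAt (fun q => (!₂[X q, Y q, Z q] : EuclideanSpace ℝ (Fin 3)))
      ((EuclideanSpace.equiv (Fin 3) ℝ).symm.toContinuousLinearMap ∘L
        (ContinuousLinearMap.pi ![LX, LY, LZ])) q := by
    rw [← hasFDerivWithinAt_univ, hasFDerivWithinAt_euclidean]
    intro i
    rw [hasFDerivWithinAt_univ]
    fin_cases i
    · exact hX
    · exact hY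
    · exact hZ
  rw [h.fderiv]
  simp [PiLp.inner_apply, Fin.sum_univ_three]
  ring

end Vale.Agent.P229
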