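import Vale.Agent.P229.Basic

/-!
Local smooth isometric realization of the metrics `e(u)^2 du^2 + (α(v) + a(u) β(v))^2 dv^2`
by moulding surfaces.
-/

namespace Vale.Agent.P229

open scoped ContDiff

theorem hasFDerivAt_sep (G P S : ℝ → ℝ) (G' P' S' : ℝ) (q : ℝ × ℝ) (hG : HasDerivAt G G' q.2)
    (hP : HasDerivAt P P' q.1) (hS : HasDerivAt S S' q.2) :
    HasFDerivAt (fun q : ℝ × ℝ => G q.2 + P q.1 * S q.2)
      ((P' * S q.2) • ContinuousLinearMap.fst ℝ ℝ ℝ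
        + (G' + P q.1 * S') • ContinuousLinearMap.snd ℝ ℝ ℝ) q := by
  have h1 : HasFDerivAt (fun q : ℝ × ℝ => G q.2) (G' • ContinuousLinearMap.snd ℝ ℝ ℝ) q :=
    hG.comp_hasFDerivAt q hasFDerivAt_snd
  have h2 : HasFDerivAt (fun q : ℝ × ℝ => P q.1) (P' • ContinuousLinearMap.fst ℝ ℝ ℝ) q :=
    hP.comp_hasFDerivAt q hasFDerivAt_fst
  have h3 : HasFDerivAt (fun q : ℝ × ℝ => S q.2) (S' • ContinuousLinearMap.snd ℝ ℝ ℝ) q :=
    hS.comp_hasFDerivAt q hasFDerivAt_snd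
  have h4 := h1.add (h2.mul h3)
  refine h4.congr_fderiv ?_
  ext <;> simp <;> ring

theorem moulding (e a α β : ℝ → ℝ) (he : ContDiff ℝ ∞ e) (ha : ContDiff ℝ ∞ a)
    (hα : ContDiff ℝ ∞ α) (hβ : ContDiff ℝ ∞ β) (p : ℝ × ℝ) (hp : e p.1 ≠ 0) :
    ∃ U : Set (ℝ × ℝ), IsOpen U ∧ p ∈ U ∧ ∃ Φ : ℝ × ℝ → EuclideanSpace ℝ (Fin 3),
      ContDiffOn ℝ ∞ Φ U ∧ ∀ q ∈ U,
        inner ℝ (fderiv ℝ Φ q (1, 0)) (fderiv ℝ Φ q (1, 0)) = e q.1 ^ 2 ∧
        inner ℝ (fderiv ℝ Φ q (1, 0)) (fderiv ℝ Φ q (0, 1)) = 0 ∧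
        inner ℝ (fderiv ℝ Φ q (0, 1)) (fderiv ℝ Φ q (0, 1))
          = (α q.2 + a q.1 * β q.2) ^ 2 := by
  have hep : 0 < |e p.1| := abs_pos.mpr hp
  set lam : ℝ := (|deriv a p.1| + 1) / |e p.1| with hlam
  have hlam0 : 0 < lam := div_pos (by positivity) hep
  have hda : ContDiff ℝ ∞ (deriv a) := (contDiff_infty_iff_deriv.mp ha).2
  have hadiff : ∀ u, HasDerivAt a (deriv a u) u := fun u =>
    ((contDiff_infty_iff_deriv.mp ha).1 u).hasDerivAt
  set at1 : ℝ → ℝ := fun u => a u / lam with hat1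
  set dat : ℝ → ℝ := fun u => deriv a u / lam with hdat
  have hat1d : ∀ u, HasDerivAt at1 (dat u) u := fun u => (hadiff u).div_const lam
  have hat1c : ContDiff ℝ ∞ at1 := ha.div_const lam
  have hdatc : ContDiff ℝ ∞ dat := hda.div_const lam
  set bt : ℝ → ℝ := fun v => lam * β v with hbt
  have hbtc : ContDiff ℝ ∞ bt := contDiff_const.mul hβ
  set θ : ℝ → ℝ := fun v => - ∫ t in (0 : ℝ)..v, bt t with hθ
  have hθc : ContDiff ℝ ∞ θ := (prim_contDiff bt hbtc 0).neg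
  have hθd : ∀ v, HasDerivAt θ (- bt v) v := fun v => (prim_hasDerivAt bt hbtc.continuous 0 v).neg
  have hc1 : ContDiff ℝ ∞ (fun t => α t * Real.cos (θ t)) := hα.mul (Real.contDiff_cos.comp hθc)
  have hc2 : ContDiff ℝ ∞ (fun t => α t * Real.sin (θ t)) := hα.mul (Real.contDiff_sin.comp hθc)
  set g1 : ℝ → ℝ := fun v => ∫ t in (0 : ℝ)..v, α t * Real.cos (θ t) with hg1
  set g2 : ℝ → ℝ := fun v => ∫ t in (0 : ℝ)..v, α t * Real.sin (θ t) with hg2
  have hg1c : ContDiff ℝ ∞ g1 := prim_contDiff _ hc1 0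
  have hg2c : ContDiff ℝ ∞ g2 := prim_contDiff _ hc2 0
  have hg1d : ∀ v, HasDerivAt g1 (α v * Real.cos (θ v)) v := fun v =>
    prim_hasDerivAt _ hc1.continuous 0 v
  have hg2d : ∀ v, HasDerivAt g2 (α v * Real.sin (θ v)) v := fun v =>
    prim_hasDerivAt _ hc2.continuous 0 v
  set w : ℝ → ℝ := fun u => e u ^ 2 - dat u ^ 2 with hw
  have hwc : ContDiff ℝ ∞ w := (he.pow 2).sub (hdatc.pow 2)
  have hsw : Continuous fun u => Real.sqrt (w u) := Real.continuous_sqrt.comp hwc.continuous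
  set z : ℝ → ℝ := fun u => ∫ t in p.1..u, Real.sqrt (w t) with hz
  have hzd : ∀ u, HasDerivAt z (Real.sqrt (w u)) u := fun u => prim_hasDerivAt _ hsw p.1 u
  set I : Set ℝ := {u | 0 < w u} with hI
  have hIo : IsOpen I := isOpen_lt continuous_const hwc.continuous
  have hzc : ContDiffOn ℝ ∞ z I :=
    prim_contDiffOn _ hsw I hIo (hwc.contDiffOn.sqrt fun u hu => ne_of_gt hu) p.1
  have hpI : p.1 ∈ I := by
    show 0 < e p.1 ^ 2 - dat p.1 ^ 2
    have h1 : |dat p.1| < |e p.1| := by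
      simp only [hdat, hlam]
      rw [abs_div, abs_div, abs_abs, abs_of_pos (show (0 : ℝ) < |deriv a p.1| + 1 by positivity),
        div_div_eq_mul_div, div_lt_iff₀ (by positivity)]
      nlinarith [abs_nonneg (deriv a p.1)]
    have h2 := sq_lt_sq.mpr h1
    linarith
  set S1 : ℝ → ℝ := fun v => - Real.sin (θ v) with hS1
  set S2 : ℝ → ℝ := fun v => Real.cos (θ v) with hS2
  have hS1d : ∀ v, HasDerivAt S1 (Real.cos (θ v) * bt v) v := by
    intro v
    have := ((Real.hasDerivAt_sin (θ v)).comp v (hθd v)).neg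
    refine this.congr_deriv ?_
    ring
  have hS2d : ∀ v, HasDerivAt S2 (Real.sin (θ v) * bt v) v := by
    intro v
    have := (Real.hasDerivAt_cos (θ v)).comp v (hθd v)
    refine this.congr_deriv ?_
    ring
  have hS1c : ContDiff ℝ ∞ S1 := (Real.contDiff_sin.comp hθc).neg
  have hS2c : ContDiff ℝ ∞ S2 := Real.contDiff_cos.comp hθc
  set X : ℝ × ℝ → ℝ := fun q => g1 q.2 + at1 q.1 * S1 q.2 with hX
  set Y : ℝ × ℝ → ℝ := fun q => g2 q.2 + at1 q.1 * S2 q.2 with hY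
  set Z : ℝ × ℝ → ℝ := fun q => z q.1 with hZ
  have hXc : ContDiff ℝ ∞ X :=
    (hg1c.comp contDiff_snd).add ((hat1c.comp contDiff_fst).mul (hS1c.comp contDiff_snd))
  have hYc : ContDiff ℝ ∞ Y :=
    (hg2c.comp contDiff_snd).add ((hat1c.comp contDiff_fst).mul (hS2c.comp contDiff_snd))
  have hZc : ContDiffOn ℝ ∞ Z (Prod.fst ⁻¹' I) :=
    hzc.comp contDiff_fst.contDiffOn (fun q hq => hq)
  refine ⟨Prod.fst ⁻¹' I, hIo.preimage continuous_fst, hpI,
    fun q => (!₂[X q, Y q, Z q] : EuclideanSpace ℝ (Fin 3)), ?_, ?_⟩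
  · rw [contDiffOn_euclidean]
    intro i
    fin_cases i
    · exact hXc.contDiffOn
    · exact hYc.contDiffOn
    · exact hZc
  · intro q hq
    have hwq : 0 < w q.1 := hq
    have hXd := hasFDerivAt_sep g1 at1 S1 _ _ _ q (hg1d q.2) (hat1d q.1) (hS1d q.2)
    have hYd := hasFDerivAt_sep g2 at1 S2 _ _ _ q (hg2d q.2) (hat1d q.1) (hS2d q.2)
    have hZd : HasFDerivAt Z (Real.sqrt (w q.1) • ContinuousLinearMap.fst ℝ ℝ ℝ) q :=
      (hzd q.1).comp_hasFDerivAt q hasFDerivAt_fst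
    have hsq : Real.sqrt (w q.1) * Real.sqrt (w q.1) = w q.1 := Real.mul_self_sqrt hwq.le
    have hcs := Real.sin_sq_add_cos_sq (θ q.2)
    have hab : at1 q.1 * bt q.2 = a q.1 * β q.2 := by
      simp only [hat1, hbt]
      field_simp
    refine ⟨?_, ?_, ?_⟩
    · rw [inner_fderiv X Y Z q _ _ _ hXd hYd hZd]
      simp only [_root_.add_apply, _root_.smul_apply,
        ContinuousLinearMap.coe_fst', ContinuousLinearMap.coe_snd', smul_eq_mul, mul_one,
        mul_zero, add_zero, hS1, hS2]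
      rw [hsq]
      simp only [hw]
      nlinarith [hcs]
    · rw [inner_fderiv X Y Z q _ _ _ hXd hYd hZd]
      simp only [_root_.add_apply, _root_.smul_apply,
        ContinuousLinearMap.coe_fst', ContinuousLinearMap.coe_snd', smul_eq_mul, mul_one,
        mul_zero, add_zero, zero_add, hS1, hS2]
      ring
    · rw [inner_fderiv X Y Z q _ _ _ hXd hYd hZd]
      simp only [_root_.add_apply, _root_.smul_apply,
        ContinuousLinearMap.coe_fst', ContinuousLinearMap.coe_snd', smul_eq_mul, mul_one,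
        mul_zero, add_zero, zero_add, hS1, hS2]
      rw [← hab]
      have : (α q.2 * Real.cos (θ q.2) + at1 q.1 * (Real.cos (θ q.2) * bt q.2))
            * (α q.2 * Real.cos (θ q.2) + at1 q.1 * (Real.cos (θ q.2) * bt q.2))
          + (α q.2 * Real.sin (θ q.2) + at1 q.1 * (Real.sin (θ q.2) * bt q.2))
            * (α q.2 * Real.sin (θ q.2) + at1 q.1 * (Real.sin (θ q.2) * bt q.2))
          = (α q.2 + at1 q.1 * bt q.2) ^ 2 * (Real.sin (θ q.2) ^ 2 + Real.cos (θ q.2) ^ 2) := by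
        ring
      rw [this, hcs, mul_one]

end Vale.Agent.P229
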